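import Vale.Agent.P313.AC.G.Gap
import Vale.Agent.P313.AC.H72.A
import Vale.Agent.P313.AC.H81.Est
import Vale.Agent.P313.AC.H70.C12
import Vale.Agent.P313.AC.H904.C3
import Vale.Agent.P313.AC.H535.ModD
import Vale.Agent.P313.AC.H95.FOa
import Vale.Agent.P313.AC.H95.Gg
import Vale.Agent.P313.AC.H904.F2
import Vale.Agent.P313.AC.H602.F3
import Vale.Agent.P313.AC.H146.F4
import Vale.Agent.P313.AC.H55.F5
import Vale.Agent.P313.AC.H70.F6
import Vale.Agent.P313.AC.H535.F7

/-!
`BPL` is in logspace-uniform `AC^1`: all modules together.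
-/

namespace Vale.Agent.P313.AC

theorem modC4_all : ModC4 := H81.modC4 H70.modC1 H70.modC2 H904.modC3

theorem modF7_all : ModF7 :=
  H535.modF7 H904.modF2 H602.modF3 H146.modF4 H55.modF5 H70.modF6

/-- `BPL` is in logspace-uniform `AC^1`. -/
theorem goal : Goal :=
  goal_of H72.modA modC4_all modD H95.modG H95.modF1 modF7_all

end Vale.Agent.P313.AC
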