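import Vale.Agent.P313.AC.G.All
import Vale.Agent.P313.AC.H602.OutG

/-!
The gap form: all modules together.
-/

namespace Vale.Agent.P313.AC

/-- The acceptance probability of a machine up to `(n + 2) ^ (-k)` in logspace-uniform `AC^1`. -/
theorem goalGap : GoalGap :=
  goalGap_of H72.modA modC4_all modD H95.modGg modF7_all (H602.modG1 H95.modF1) H602.modG2

end Vale.Agent.P313.AC
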