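import Vale.Agent.P313.AC.G.Spec
import Vale.Agent.P313.AC.H577.F8

/-!
The gap form: chain of any machine, errors, decision, assembly.
-/

namespace Vale.Agent.P313.AC

open Finset RTM

/-- The chain of a machine. -/
theorem modEg : ModEg := by
  intro M c hB
  obtain ⟨e, he⟩ := exists_rW M c
  have hsz : ∀ n, rW M c n ^ M.nd + 2 ≤ 2 ^ ((2 * e + 2 * c + 1) * lam n) := by
    intro n
    refine (he n).trans ((pow_le_two_pow_lam n e).trans ?_)
    apply Nat.pow_le_pow_right (by norm_num)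
    exact Nat.mul_le_mul_right _ (by omega)
  have htm : ∀ n, (n + 2) ^ c ≤ 2 ^ ((2 * e + 2 * c + 1) * lam n) := by
    intro n
    refine (pow_le_two_pow_lam n c).trans ?_
    apply Nat.pow_le_pow_right (by norm_num)
    exact Nat.mul_le_mul_right _ (by omega)
  have hF : ∀ x, M.Fit x (Sel.sW M c x) (Sel.sT c x) :=
    fun x => Sel.fit hB (fun n => Nat.le_add_right _ _) x
  have hst : ∀ x : List Bool, stE M c x.length = cdE M (Sel.sW M c x) M.init := by
    intro x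
    unfold stE cdE
    rw [M.enc_init, rW_eq]
  refine ⟨2 * e + 2 * c + 1, stE M c, psE M c, nxE M c, by omega, nf_stE M c, nf_psE M c,
    nf_nxE M c, ?_, ?_, ?_⟩
  · intro n
    have h1 := hst (List.replicate n false)
    rw [List.length_replicate] at h1
    rw [h1]
    have h2 := cdE_lt ((hF (List.replicate n false)).small 0 M.init (M.rch_init _))
    have h3 := hsz n
    have h4 : rW M c n = Sel.sW M c (List.replicate n false) := by
      rw [← rW_eq, List.length_replicate]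
    rw [h4] at h3
    exact h2.trans_le h3
  · intro n s b u hu
    unfold nxE
    split_ifs with h
    · exact hu
    · have h1 : ∀ v, RTM.clp (rW M c n ^ M.nd + 2) v < rW M c n ^ M.nd + 2 := by
        intro v
        unfold RTM.clp
        split_ifs <;> omega
      exact (h1 _).trans_le (hsz n)
  · intro x
    rw [hst x]
    exact wp_cdE (hF x) _ 0 _ (by unfold Sel.sT; omega) (M.rch_init x) _ (htm _)

/-- The mixing with an explicit error. -/
theorem sqr_wp_le (N L g0 : ℕ) (nxt : ℕ → ℕ → ℕ) (hN : 0 < N)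
    (hn : ∀ x < N, ∀ b, nxt x b < N) : ∀ x < N, ∀ y < N,
    |sqr N (gmx N g0 nxt) L x y - wp nxt (2 ^ L) x y| ≤ 2 ^ L * (2 / 2 ^ g0) := by
  have hN' : (0 : ℝ) < N := by exact_mod_cast hN
  have hp : (1 : ℝ) ≤ 2 ^ g0 := one_le_pow₀ (by norm_num)
  have hp0 : (0 : ℝ) < 2 ^ g0 := by linarith
  have h01 : (1 : ℝ) / 2 ^ g0 ≤ 1 := by rw [div_le_one hp0]; exact hp
  have h1 : ∀ x y, 1 / 2 ^ g0 / (N : ℝ) ≤ gmx N g0 nxt x y := by
    intro x y
    unfold gmx
    have := mul_nonneg (sub_nonneg.2 h01) (wp_nonneg nxt 1 x y)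
    linarith
  have hpos : ∀ x < N, ∀ y < N, 0 ≤ gmx N g0 nxt x y := by
    intro x _ y _
    exact le_trans (by positivity) (h1 x y)
  have hsum : ∀ x < N, ∑ y ∈ range N, gmx N g0 nxt x y = 1 := by
    intro x hx
    unfold gmx
    rw [sum_add_distrib, ← mul_sum, wp_sum hn 1 x hx, sum_const, card_range, nsmul_eq_mul]
    field_simp
    ring
  have he : ∀ x < N, ∑ y ∈ range N, |gmx N g0 nxt x y - wp nxt 1 x y| ≤ 2 / 2 ^ g0 := by
    intro x hx
    have e1 : ∀ y, |gmx N g0 nxt x y - wp nxt 1 x y| ≤ 1 / 2 ^ g0 / N + 1 / 2 ^ g0 * wp nxt 1 x y := by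
      intro y
      have e2 : gmx N g0 nxt x y - wp nxt 1 x y = 1 / 2 ^ g0 / N - 1 / 2 ^ g0 * wp nxt 1 x y := by
        unfold gmx; ring
      rw [e2]
      refine (abs_sub _ _).trans (le_of_eq ?_)
      rw [abs_of_nonneg (by positivity), abs_of_nonneg (mul_nonneg (by positivity) (wp_nonneg _ _ _ _))]
    refine (sum_le_sum fun y _ => e1 y).trans (le_of_eq ?_)
    rw [sum_add_distrib, ← mul_sum, wp_sum hn 1 x hx, sum_const, card_range, nsmul_eq_mul]
    field_simp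
    ring
  intro x hx y hy
  have h2 := sqr_dist hn hpos hsum he L x hx
  have h3 : |sqr N (gmx N g0 nxt) L x y - wp nxt (2 ^ L) x y| ≤
      ∑ y ∈ range N, |sqr N (gmx N g0 nxt) L x y - wp nxt (2 ^ L) x y| :=
    single_le_sum (f := fun y => |sqr N (gmx N g0 nxt) L x y - wp nxt (2 ^ L) x y|)
      (fun _ _ => abs_nonneg _) (mem_range.2 hy)
  exact h3.trans h2

section gap

variable {c κ j0 n k : ℕ} {p : Pr} {nxt : ℕ → ℕ → ℕ}

/-- The last digit is an approximation with error `1 / (2 (n + 2) ^ k)`. -/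
theorem AE_gap (h4 : ModC4) (hD : ModD) (hG : Good c κ j0 n p) (hX : GoodX k n p)
    (hn : ∀ x < p.N, ∀ b, nxt x b < p.N) {st : ℕ} (hst : st < p.N) :
    |(AE j0 p nxt p.L p.tm st 0 : ℝ) / p.Q - wp nxt (2 ^ (c * lam n)) st 0| ≤
      1 / (2 * ((n : ℝ) + 2) ^ k) := by
  have h := AE_acc h4 hD modE2 hG hn p.L le_rfl p.tm hG.htm le_rfl st hst 0 hG.N_pos
  have hE := modE2 p.N p.L p.g0 nxt hG.N_pos hG.hg hn
  have hs := sqr_le_one' (fun x hx y hy => le_trans (by positivity) (hE.1 x hx y hy)) hE.2.1 p.L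
  have hs0 := hs.1 st hst 0 hG.N_pos
  have hs1 : sqr p.N (gmx p.N p.g0 nxt) p.L st 0 ≤ 1 := by
    rw [← hs.2 st hst]
    exact single_le_sum (f := fun y => sqr p.N (gmx p.N p.g0 nxt) p.L st y)
      (fun i hi => hs.1 st hst i (mem_range.1 hi)) (mem_range.2 hG.N_pos)
  have hM : (0 : ℝ) < ((n : ℝ) + 2) ^ k := by positivity
  have hf : (4 : ℝ) ^ p.L / (2 ^ p.b) ^ p.tm ≤ 1 / (4 * ((n : ℝ) + 2) ^ k) := by
    rw [div_le_div_iff₀ (by positivity) (by positivity)]
    have := hX.hE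
    have h' : 4 * ((n : ℝ) + 2) ^ k * (4 : ℝ) ^ p.L ≤ (2 ^ p.b) ^ p.tm := by exact_mod_cast this
    linarith
  have h5 : (4 : ℝ) ^ p.L / (2 ^ p.b) ^ p.tm * sqr p.N (gmx p.N p.g0 nxt) p.L st 0 ≤
      1 / (4 * ((n : ℝ) + 2) ^ k) := by
    have := mul_le_mul hf hs1 hs0 (by positivity)
    linarith
  have h6 := h.trans h5
  have h7 := sqr_wp_le p.N p.L p.g0 nxt hG.N_pos hn st hst 0 hG.N_pos
  have h8 : (2 : ℝ) ^ p.L * (2 / 2 ^ p.g0) ≤ 1 / (4 * ((n : ℝ) + 2) ^ k) := by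
    have := hX.hg
    have h' : (2 : ℝ) ^ (p.L + 3) * ((n : ℝ) + 2) ^ k ≤ 2 ^ p.g0 := by exact_mod_cast this
    rw [mul_div_assoc', div_le_div_iff₀ (by positivity) (by positivity)]
    rw [pow_add] at h'
    norm_num at h'
    linarith
  have hL : p.L = c * lam n := hG.hL
  rw [← hL]
  have h9 := abs_sub_le ((AE j0 p nxt p.L p.tm st 0 : ℝ) / p.Q)
    (sqr p.N (gmx p.N p.g0 nxt) p.L st 0) (wp nxt (2 ^ p.L) st 0)
  have h10 : (1 : ℝ) / (4 * ((n : ℝ) + 2) ^ k) + 1 / (4 * ((n : ℝ) + 2) ^ k) =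
      1 / (2 * ((n : ℝ) + 2) ^ k) := by
    field_simp
    ring
  linarith

/-- The decision with a rational threshold. -/
theorem AE_decg (h4 : ModC4) (hD : ModD) (hG : Good c κ j0 n p) (hX : GoodX k n p)
    (hn : ∀ x < p.N, ∀ b, nxt x b < p.N) {st : ℕ} (hst : st < p.N) {α β : ℕ} (hβ : 1 ≤ β) :
    ((α : ℝ) / β + 1 / ((n : ℝ) + 2) ^ k ≤ wp nxt (2 ^ (c * lam n)) st 0 →
      α * p.Q ≤ β * AE j0 p nxt p.L p.tm st 0) ∧
    (wp nxt (2 ^ (c * lam n)) st 0 ≤ (α : ℝ) / β - 1 / ((n : ℝ) + 2) ^ k →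
      ¬ α * p.Q ≤ β * AE j0 p nxt p.L p.tm st 0) := by
  have h := abs_le.1 (AE_gap h4 hD hG hX hn hst)
  have hQ' : (0 : ℝ) < p.Q := by exact_mod_cast hG.Q_pos
  have hβ' : (0 : ℝ) < β := by exact_mod_cast hβ
  have hM : (0 : ℝ) < ((n : ℝ) + 2) ^ k := by positivity
  have hδ : (1 : ℝ) / (2 * ((n : ℝ) + 2) ^ k) < 1 / ((n : ℝ) + 2) ^ k := by
    apply one_div_lt_one_div_of_lt hM
    linarith
  have key : α * p.Q ≤ β * AE j0 p nxt p.L p.tm st 0 ↔
      (α : ℝ) / β ≤ (AE j0 p nxt p.L p.tm st 0 : ℝ) / p.Q := by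
    rw [div_le_div_iff₀ hβ' hQ', ← Nat.cast_le (α := ℝ)]
    push_cast
    rw [mul_comm ((AE j0 p nxt p.L p.tm st 0 : ℕ) : ℝ) (β : ℝ)]
  rw [key]
  refine ⟨fun h8 => ?_, fun h8 h9 => ?_⟩
  · linarith [h.1]
  · linarith [h.2]

end gap

section run

variable {D : Dat} (x : List Bool)

theorem it_aOg (α β : ℕ) (hD : D.Ok) (hB : Bdd D x) (h7 : ModF7) (h2 : ModG2) :
    it (opG α β D) D.e x (tO D x.length) aO ↔
      α * (D.p x.length).Q ≤
        β * vA D x (D.p x.length).L (D.p x.length).tm (D.st x.length) 0 := by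
  have hI := h7 D x hD hB (rA D (D.p x.length).L (D.p x.length).tm)
  have hG := hD.good x.length
  have h4 := four_lt hD x.length
  have ha : ∀ i, aO i < (x.length + 2) ^ D.e := by
    intro i
    have : aO i ≤ 4 := by
      unfold aO
      fin_cases i <;> simp
    omega
  have hV : vA D x (D.p x.length).L (D.p x.length).tm (D.st x.length) 0 <
      (x.length + 2) ^ D.e := by
    have h1 := hB (D.p x.length).L (D.p x.length).tm (D.st x.length) 0 le_rfl hG.htm le_rfl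
      (hD.lst _) hG.N_pos
    have h2 := hG.hV
    have h3 := hD.goodF.hV x.length
    have h5 := hG.Q_pos
    omega
  have e2 : ∀ v, it (opG α β D) D.e x (rA D (D.p x.length).L (D.p x.length).tm)
      (aA (D.p x.length).L (D.p x.length).tm (D.st x.length) 0 v) ↔
      it (opF D) D.e x (rA D (D.p x.length).L (D.p x.length).tm)
      (aA (D.p x.length).L (D.p x.length).tm (D.st x.length) 0 v) := fun v =>
    h2 α β D x _ _ (by show (0 : ℕ) ≠ 4; norm_num)
  unfold tO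
  show ((∀ i, aO i < (x.length + 2) ^ D.e) ∧ opG α β D x (it (opG α β D) D.e x _) aO) ↔ _
  have e0 : aO 0 = 4 := rfl
  have e1 : opG α β D x (it (opG α β D) D.e x (rA D (D.p x.length).L (D.p x.length).tm)) aO ↔
      opOg α β D x (it (opG α β D) D.e x (rA D (D.p x.length).L (D.p x.length).tm)) aO := by
    unfold opG
    rw [e0]
    simp
  rw [e1]
  constructor
  · rintro ⟨_, v, hv, h1, h3⟩
    rw [e2] at h3
    have := (hI.cA _ _ _ _ v le_rfl hG.htm le_rfl (hD.lst _) hG.N_pos hv le_rfl).1 h3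
    rw [← this]; exact h1
  · intro h
    exact ⟨ha, _, hV, h, (e2 _).2 ((hI.cA _ _ _ _ _ le_rfl hG.htm le_rfl (hD.lst _) hG.N_pos hV
      le_rfl).2 rfl)⟩

end run

/-- The final assembly of the gap form. -/
theorem goalGap_of (hA : ModA) (h4 : ModC4) (hMD : ModD) (hG : ModGg) (h7 : ModF7) (g1 : ModG1)
    (g2 : ModG2) : GoalGap := by
  intro M c0 hM k α β hβ
  obtain ⟨c, st, ps, nx, hc, nst, nps, nnx, lst, lnx, hp⟩ := modEg M c0 hM
  obtain ⟨κ, j0, e, p, hκ, hj, hgood, hgoodF, hgoodX⟩ := hG c k hc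
  set D : Dat := ⟨c, κ, j0, e, p, st, ps, nx⟩ with hDdef
  have hD : D.Ok := by
    refine ⟨hκ, hj, hgood, hgoodF, nst, nps, nnx, fun n => ?_, fun n s b u hu => ?_⟩
    · show st n < (p n).N
      rw [(hgood n).hN]; exact lst n
    · have hu' : u < (p n).N := hu
      show nx n s u b < (p n).N
      rw [(hgood n).hN] at hu' ⊢
      exact lnx n s b u hu'
  refine ⟨{x | it (opG α β D) D.e x (tO D x.length) aO},
    UAC.mono _ (fun n => tO_le hD n) (hA 14 (opG α β D) D.e (tO D) (fun _ => aO) (g1 α β D hD)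
      (nf_tO hD) (fun i => LF.const (aO i))), fun x => ?_⟩
  have hv := AE_decg h4 hMD (hD.good x.length) (hgoodX x.length) (nxt_lt x hD) (hD.lst _)
    (α := α) hβ
  have hx : wp (nxt D x) (2 ^ (D.c * lam x.length)) (D.st x.length) 0 =
      ((M.probAt x true ((x.length + 2) ^ c0) 0 M.init : ℚ) : ℝ) := hp x
  rw [hx, ← vA_eq x hD] at hv
  show (_ → it (opG α β D) D.e x (tO D x.length) aO) ∧
    (_ → ¬ it (opG α β D) D.e x (tO D x.length) aO)
  rw [it_aOg x α β hD (bdd x h4 hMD modE2 hD) h7 g2]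
  refine ⟨fun h => hv.1 ?_, fun h => hv.2 ?_⟩
  · have h3 : (((α : ℚ) / β + 1 / ((x.length : ℚ) + 2) ^ k : ℚ) : ℝ) ≤
        ((M.probAt x true ((x.length + 2) ^ c0) 0 M.init : ℚ) : ℝ) := by exact_mod_cast h
    push_cast at h3
    exact h3
  · have h3 : ((M.probAt x true ((x.length + 2) ^ c0) 0 M.init : ℚ) : ℝ) ≤
        (((α : ℚ) / β - 1 / ((x.length : ℚ) + 2) ^ k : ℚ) : ℝ) := by exact_mod_cast h
    push_cast at h3
    exact h3

/-- The gap form contains the statement for `BPL`. -/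
theorem goal_of_gap (h : GoalGap) : Goal := by
  intro A hA
  obtain ⟨M, c, hB, hP⟩ := hA
  obtain ⟨A', hU, hA'⟩ := h M c hB 3 1 2 (by norm_num)
  have e : A = A' := by
    ext x
    have h8 : (8 : ℚ) ≤ ((x.length : ℚ) + 2) ^ 3 := by
      have h0 : (0 : ℚ) ≤ x.length := by positivity
      calc (8 : ℚ) = 2 ^ 3 := by norm_num
        _ ≤ ((x.length : ℚ) + 2) ^ 3 := pow_le_pow_left₀ (by norm_num) (by linarith) 3
    have h9 : (1 : ℚ) / ((x.length : ℚ) + 2) ^ 3 ≤ 1 / 8 :=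
      one_div_le_one_div_of_le (by norm_num) h8
    obtain ⟨p1, p2⟩ := hP x
    obtain ⟨q1, q2⟩ := hA' x
    constructor
    · intro hx
      have := p1 hx
      apply q1
      push_cast
      linarith
    · intro hx
      by_contra hxA
      have := p2 hxA
      apply q2 _ hx
      push_cast
      linarith
  rw [e]
  exact hU

end Vale.Agent.P313.AC
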