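import Vale.Agent.P313.AC.FDef

/-!
The gap form: the acceptance probability of a machine up to `(n + 2) ^ (-k)` in logspace-uniform
`AC^1`. Frozen statements.
-/

namespace Vale.Agent.P313.AC

open Finset

/-- The chain of any machine with a polynomial time bound and logarithmic space. -/
def ModEg : Prop := ∀ (M : RTM) (c0 : ℕ),
  M.Bounded (fun n => (n + 2) ^ c0) (fun n => c0 * Nat.log 2 (n + 2)) →
  ∃ (c : ℕ) (st : ℕ → ℕ) (ps : ℕ → ℕ → ℕ) (nx : ℕ → ℕ → ℕ → ℕ → ℕ),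
    1 ≤ c ∧ NF (fun a : Fin 1 → ℕ => st (a 0)) ∧ NF (fun a : Fin 2 → ℕ => ps (a 0) (a 1)) ∧
    NF (fun a : Fin 4 → ℕ => nx (a 0) (a 1) (a 2) (a 3)) ∧
    (∀ n, st n < 2 ^ (c * lam n)) ∧
    (∀ n s b, ∀ u < 2 ^ (c * lam n), nx n s u b < 2 ^ (c * lam n)) ∧
    ∀ x : List Bool, wp (fun u b => nx x.length (symc x (ps x.length u)) u b)
        (2 ^ (c * lam x.length)) (st x.length) 0 =
      ((M.probAt x true ((x.length + 2) ^ c0) 0 M.init : ℚ) : ℝ)

/-- More conditions on the parameters: precision `1 / (n + 2) ^ k`. -/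
structure GoodX (k n : ℕ) (p : Pr) : Prop where
  hE : 4 * (n + 2) ^ k * 4 ^ p.L ≤ (2 ^ p.b) ^ p.tm
  hg : 2 ^ (p.L + 3) * (n + 2) ^ k ≤ 2 ^ p.g0

/-- Good parameters exist for any precision. -/
def ModGg : Prop := ∀ c k : ℕ, 1 ≤ c → ∃ (κ j0 e : ℕ) (p : ℕ → Pr), 1 ≤ κ ∧ 1 ≤ j0 ∧
  (∀ n, Good c κ j0 n (p n)) ∧ GoodF κ j0 e p ∧ ∀ n, GoodX k n (p n)

/-- The output test `a Q ≤ b v`, `v` the last value. -/
def opOg (α β : ℕ) (D : Dat) : Op 14 14 := fun x X _ => ∃ v < (x.length + 2) ^ D.e,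
  α * (D.p x.length).Q ≤ β * v ∧ X (aA (D.p x.length).L (D.p x.length).tm (D.st x.length) 0 v)

/-- The operator with the other output test. -/
def opG (α β : ℕ) (D : Dat) : Op 14 14 := fun x X a =>
  (a 0 = 4 ∧ opOg α β D x X a) ∨ (a 0 ≠ 4 ∧ opF D x X a)

/-- The operator is first-order. -/
def ModG1 : Prop := ∀ (α β : ℕ) (D : Dat), D.Ok → FO (opG α β D)

/-- The two iterations agree on all addresses except the output. -/
def ModG2 : Prop := ∀ (α β : ℕ) (D : Dat) (x : List Bool) (T : ℕ) (a : Fin 14 → ℕ), a 0 ≠ 4 →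
  (it (opG α β D) D.e x T a ↔ it (opF D) D.e x T a)

/-- The acceptance probability of a machine within `(n + 2) ^ (-k)` around any rational
threshold. -/
def GoalGap : Prop := ∀ (M : RTM) (c : ℕ),
  M.Bounded (fun n => (n + 2) ^ c) (fun n => c * Nat.log 2 (n + 2)) → ∀ k α β : ℕ, 1 ≤ β →
  ∃ A : Set (List Bool), UniformAC1 A ∧ ∀ x : List Bool,
    ((α : ℚ) / β + 1 / ((x.length : ℚ) + 2) ^ k ≤
      M.probAt x true ((x.length + 2) ^ c) 0 M.init → x ∈ A) ∧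
    (M.probAt x true ((x.length + 2) ^ c) 0 M.init ≤
      (α : ℚ) / β - 1 / ((x.length : ℚ) + 2) ^ k → x ∉ A)

end Vale.Agent.P313.AC
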